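import Mathlib.Analysis.InnerProductSpace.PiL2
import Mathlib.Tactic

/-! Universal-start kill sequences for signed prefix sums: the orthogonal nesting lemma and a
certificate in the lattice (1/5) Z^2 at squared norm 64/25. -/

namespace Vale.Agent.P262

open Finset

set_option linter.unusedSectionVars false

variable {ι κ : Type*} [Fintype ι] [Fintype κ]

/-- Squared Euclidean norm of an integer vector. -/
def nsq (x : ι → ℤ) : ℤ := ∑ i, x i ^ 2

lemma nsq_nonneg (x : ι → ℤ) : 0 ≤ nsq x := Finset.sum_nonneg fun _ _ => sq_nonneg _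

/-- `Dies T L x`: along every signing of the list `L`, starting from `x`, some prefix
(possibly the empty one) reaches squared norm at least `T`. -/
def Dies (T : ℤ) : List (ι → ℤ) → (ι → ℤ) → Prop
  | [], x => T ≤ nsq x
  | v :: L, x => T ≤ nsq x ∨ (Dies T L (x + v) ∧ Dies T L (x - v))

lemma dies_of_le {T : ℤ} {x : ι → ℤ} (h : T ≤ nsq x) : ∀ L : List (ι → ℤ), Dies T L x
  | [] => h
  | _ :: _ => Or.inl h

lemma nsq_elim (a : ι → ℤ) (b : κ → ℤ) : nsq (Sum.elim a b) = nsq a + nsq b := by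
  simp [nsq, Fintype.sum_sum_type]

/-- Embedding of the first factor. -/
def inlV (a : ι → ℤ) : ι ⊕ κ → ℤ := Sum.elim a 0
/-- Embedding of the second factor. -/
def inrV (b : κ → ℤ) : ι ⊕ κ → ℤ := Sum.elim 0 b

lemma elim_add_inl (x a : ι → ℤ) (y : κ → ℤ) :
    Sum.elim x y + inlV a = Sum.elim (x + a) y := by
  ext (i | j) <;> simp [inlV]
lemma elim_sub_inl (x a : ι → ℤ) (y : κ → ℤ) :
    Sum.elim x y - inlV a = Sum.elim (x - a) y := by
  ext (i | j) <;> simp [inlV]
lemma elim_add_inr (x : ι → ℤ) (y b : κ → ℤ) :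
    Sum.elim x y + inrV b = Sum.elim x (y + b) := by
  ext (i | j) <;> simp [inrV]
lemma elim_sub_inr (x : ι → ℤ) (y b : κ → ℤ) :
    Sum.elim x y - inrV b = Sum.elim x (y - b) := by
  ext (i | j) <;> simp [inrV]

/-- Nested loops: the whole list `LB` is run before and after every element of `LA`. -/
def nest (LB : List (κ → ℤ)) : List (ι → ℤ) → List (ι ⊕ κ → ℤ)
  | [] => LB.map inrV
  | a :: LA => LB.map inrV ++ inlV a :: nest LB LA

lemma dies_append_of_dies {TA TB : ℤ} {x : ι → ℤ} (hx : TA ≤ nsq x)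
    (rest : List (ι ⊕ κ → ℤ)) :
    ∀ (LB : List (κ → ℤ)) (y : κ → ℤ), Dies TB LB y →
      Dies (TA + TB) (LB.map inrV ++ rest) (Sum.elim x y)
  | [], y, h => by
      have h' : TB ≤ nsq y := h
      exact dies_of_le (by rw [nsq_elim]; linarith) _
  | b :: LB, y, h => by
      rcases h with h | ⟨h1, h2⟩
      · exact dies_of_le (by rw [nsq_elim]; linarith) _
      · refine Or.inr ⟨?_, ?_⟩
        · rw [elim_add_inr]; exact dies_append_of_dies hx rest LB _ h1
        · rw [elim_sub_inr]; exact dies_append_of_dies hx rest LB _ h2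

lemma dies_append_of_forall {T : ℤ} {x : ι → ℤ} {rest : List (ι ⊕ κ → ℤ)}
    (h : ∀ y, Dies T rest (Sum.elim x y)) :
    ∀ (LB : List (κ → ℤ)) (y : κ → ℤ), Dies T (LB.map inrV ++ rest) (Sum.elim x y)
  | [], y => h y
  | b :: LB, y => by
      refine Or.inr ⟨?_, ?_⟩
      · rw [elim_add_inr]; exact dies_append_of_forall h LB _
      · rw [elim_sub_inr]; exact dies_append_of_forall h LB _

lemma dies_nest {TA TB : ℤ} {LB : List (κ → ℤ)} (hB : ∀ y, Dies TB LB y) :
    ∀ (LA : List (ι → ℤ)) (x : ι → ℤ), Dies TA LA x →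
      ∀ y, Dies (TA + TB) (nest LB LA) (Sum.elim x y)
  | [], x, h, y => by
      have h' : TA ≤ nsq x := h
      have := dies_append_of_dies h' [] LB y (hB y)
      simpa [nest] using this
  | a :: LA, x, h, y => by
      rcases h with h | ⟨h1, h2⟩
      · exact dies_append_of_dies h _ LB y (hB y)
      · refine dies_append_of_forall (fun y' => ?_) LB y
        refine Or.inr ⟨?_, ?_⟩
        · rw [elim_add_inl]; exact dies_nest hB LA _ h1 y'
        · rw [elim_sub_inl]; exact dies_nest hB LA _ h2 y'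

lemma nest_bound {M : ℤ} {LB : List (κ → ℤ)} (hB : ∀ v ∈ LB, nsq v ≤ M) :
    ∀ LA : List (ι → ℤ), (∀ v ∈ LA, nsq v ≤ M) → ∀ v ∈ nest LB LA, nsq v ≤ M := by
  have hr : ∀ v ∈ LB.map (inrV (ι := ι)), nsq v ≤ M := by
    intro v hv
    obtain ⟨b, hb, rfl⟩ := List.mem_map.mp hv
    have h0 : nsq (0 : ι → ℤ) = 0 := by simp [nsq]
    simpa [inrV, nsq_elim, h0] using hB b hb
  intro LA
  induction LA with
  | nil => intro _ v hv; exact hr v hv
  | cons a LA ih =>
    intro hA v hv
    simp only [nest, List.mem_append, List.mem_cons] at hv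
    rcases hv with hv | rfl | hv
    · exact hr v hv
    · have h0 : nsq (0 : κ → ℤ) = 0 := by simp [nsq]
      simpa [inlV, nsq_elim, h0] using hA a (by simp)
    · exact ih (fun w hw => hA w (by simp [hw])) v hv

/-- Transport along a bijection of coordinates. -/
def tr (e : ι ≃ κ) (x : ι → ℤ) : κ → ℤ := x ∘ e.symm

lemma nsq_tr (e : ι ≃ κ) (x : ι → ℤ) : nsq (tr e x) = nsq x := by
  simpa [nsq, tr] using Equiv.sum_comp e.symm (fun i => x i ^ 2)

lemma tr_add (e : ι ≃ κ) (x v : ι → ℤ) : tr e (x + v) = tr e x + tr e v := rfl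
lemma tr_sub (e : ι ≃ κ) (x v : ι → ℤ) : tr e (x - v) = tr e x - tr e v := rfl

lemma dies_tr {T : ℤ} (e : ι ≃ κ) :
    ∀ (L : List (ι → ℤ)) (x : ι → ℤ), Dies T L x → Dies T (L.map (tr e)) (tr e x)
  | [], x, h => by
      have h' : T ≤ nsq x := h
      show T ≤ nsq (tr e x)
      rwa [nsq_tr]
  | v :: L, x, h => by
      rcases h with h | ⟨h1, h2⟩
      · exact Or.inl (by rwa [nsq_tr])
      · exact Or.inr ⟨by rw [← tr_add]; exact dies_tr e L _ h1,
          by rw [← tr_sub]; exact dies_tr e L _ h2⟩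

/-- A universal kill list: vectors of squared norm at most `25`, every integer start dies. -/
def Kill (ι : Type*) [Fintype ι] (T : ℤ) : Prop :=
  ∃ L : List (ι → ℤ), (∀ v ∈ L, nsq v ≤ 25) ∧ ∀ x, Dies T L x

/-- A kill list from the origin only. -/
def Reach (ι : Type*) [Fintype ι] (T : ℤ) : Prop :=
  ∃ L : List (ι → ℤ), (∀ v ∈ L, nsq v ≤ 25) ∧ Dies T L 0

lemma Kill.transport {T : ℤ} (e : ι ≃ κ) (h : Kill ι T) : Kill κ T := by
  obtain ⟨L, hL, hD⟩ := h
  refine ⟨L.map (tr e), ?_, fun y => ?_⟩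
  · intro v hv
    obtain ⟨w, hw, rfl⟩ := List.mem_map.mp hv
    rw [nsq_tr]; exact hL w hw
  · have := dies_tr e L (tr e.symm y) (hD _)
    have hy : tr e (tr e.symm y) = y := by
      ext k; simp [tr]
    rwa [hy] at this

lemma Reach.transport {T : ℤ} (e : ι ≃ κ) (h : Reach ι T) : Reach κ T := by
  obtain ⟨L, hL, hD⟩ := h
  refine ⟨L.map (tr e), ?_, ?_⟩
  · intro v hv
    obtain ⟨w, hw, rfl⟩ := List.mem_map.mp hv
    rw [nsq_tr]; exact hL w hw
  · have := dies_tr e L 0 hD
    have h0 : tr e (0 : ι → ℤ) = 0 := rfl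
    rwa [h0] at this

lemma Kill.sum {TA TB : ℤ} (hA : Kill ι TA) (hB : Kill κ TB) : Kill (ι ⊕ κ) (TA + TB) := by
  obtain ⟨LA, hLA, hDA⟩ := hA
  obtain ⟨LB, hLB, hDB⟩ := hB
  refine ⟨nest LB LA, nest_bound hLB LA hLA, fun z => ?_⟩
  have hz : z = Sum.elim (z ∘ Sum.inl) (z ∘ Sum.inr) := by
    ext (i | j) <;> rfl
  rw [hz]
  exact dies_nest hDB LA _ (hDA _) _

/-! ### The certificate in the plane -/

/-- The list of moves, each integer vector `(a,b)` encoded as `(a+16)*64+(b+16)`. -/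
def cert : List ℕ := [
  852, 980, 852, 916, 852, 850, 844, 781, 781, 845, 1035, 972, 782, 845, 781, 852, 786, 852, 787, 787,
  852, 1035, 720, 781, 787, 781, 787, 720, 787, 787, 781, 781, 1035, 852, 786, 844, 781, 1035, 980, 787,
  781, 1035, 781, 852, 844, 916, 844, 852, 844, 786, 782, 852, 844, 844, 908, 844, 852, 916, 916, 1036,
  1036, 844, 908, 852, 844, 1036, 1036, 908, 916, 980, 980, 1036, 1036, 844, 852, 916, 852, 916, 852, 916,
  852, 720, 844, 972, 844, 908, 844, 852, 1036, 784, 1036, 852, 844, 908, 844, 972, 844, 846, 844, 972,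
  844, 908, 852, 844, 908, 852, 916, 844, 908, 852, 844, 852, 908, 852, 844, 852, 908, 844, 852, 916,
  852, 908, 844, 852, 916, 852, 916, 852, 720, 844, 972, 844, 908, 844, 852, 1036, 784, 1036, 852, 844,
  908, 844, 908, 844, 908, 844, 852, 1036, 784, 1036, 852, 844, 908, 844, 909, 781, 782, 781, 782, 781,
  909, 844, 908, 844, 852, 980, 786, 851, 1035, 980, 786, 844, 786, 852, 781, 787, 787, 1035, 844, 852,
  720, 852, 908, 782, 786, 844, 908, 844, 908, 844, 852, 844, 916, 844, 852, 844, 916, 852, 844, 908,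
  844, 980, 852, 844, 908, 844, 972, 844, 908, 852, 844, 1036, 784, 1036, 852, 844, 908, 844, 980, 852,
  914, 852, 980, 844, 908, 844, 852, 1036, 784, 1036, 844, 852, 1036, 1036, 720, 844, 852, 980, 852, 916,
  852, 844, 908, 852, 844, 852, 908, 852, 844, 852, 908, 844, 852, 916, 852, 980, 852, 844, 1035, 720,
  1035, 852, 844, 1035, 784, 1035, 852, 844, 908, 844, 980, 852]

/-- Decoding of a move. -/
def dec (n : ℕ) : ℤ × ℤ := (((n / 64 : ℕ) : ℤ) - 16, ((n % 64 : ℕ) : ℤ) - 16)

/-- Bitmask of the lattice points of squared norm below 64, at index `(i+12)*25+(j+12)`. -/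
def aliveMask : ℕ := 6343393816015642376194628472256034017234067038525391113190510493090393931234619591774595591746294649391475030213310595925938908830749554757832015872

/-- Index of a lattice point in the bitmask. -/
def idx (x : Fin 2 → ℤ) : ℕ := ((x 0 + 12) * 25 + (x 1 + 12)).toNat

/-- The shift amount of a move. -/
def shiftOf (p : ℤ × ℤ) : ℕ := (25 * p.1 + p.2).natAbs

/-- One step of the set dynamics on bitmasks. -/
def stepMask (M : ℕ) (p : ℤ × ℤ) : ℕ :=
  ((M <<< shiftOf p) ||| (M >>> shiftOf p)) &&& aliveMask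

/-- Run the moves and test that no state is left. -/
def check : ℕ → List ℕ → Bool
  | M, [] => M == 0
  | M, n :: L => check (stepMask M (dec n)) L

/-- Vector form of a move. -/
def toV (n : ℕ) : Fin 2 → ℤ := ![(dec n).1, (dec n).2]

lemma nsq_two (x : Fin 2 → ℤ) : nsq x = x 0 ^ 2 + x 1 ^ 2 := by
  simp [nsq, Fin.sum_univ_two]

lemma alive_bit : ∀ u v : Fin 15,
    (((u : ℕ) : ℤ) - 7) ^ 2 + (((v : ℕ) : ℤ) - 7) ^ 2 < 64 →
      aliveMask.testBit (((u : ℕ) + 5) * 25 + ((v : ℕ) + 5)) = true := by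
  decide +kernel

lemma coord_bound {i j : ℤ} (h : i ^ 2 + j ^ 2 < 64) : -7 ≤ i ∧ i ≤ 7 ∧ -7 ≤ j ∧ j ≤ 7 := by
  refine ⟨?_, ?_, ?_, ?_⟩ <;> nlinarith [sq_nonneg i, sq_nonneg j]

lemma alive_of_nsq {x : Fin 2 → ℤ} (h : nsq x < 64) : aliveMask.testBit (idx x) = true := by
  rw [nsq_two] at h
  obtain ⟨h1, h2, h3, h4⟩ := coord_bound h
  have key := alive_bit ⟨(x 0 + 7).toNat, by omega⟩ ⟨(x 1 + 7).toNat, by omega⟩
  have e1 : (((x 0 + 7).toNat : ℕ) : ℤ) - 7 = x 0 := by omega
  have e2 : (((x 1 + 7).toNat : ℕ) : ℤ) - 7 = x 1 := by omega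
  simp only [e1, e2] at key
  have e3 : ((x 0 + 7).toNat + 5) * 25 + ((x 1 + 7).toNat + 5) = idx x := by
    unfold idx; omega
  rw [← e3]
  exact key h

lemma step_bit {M p q K : ℕ} (hM : M.testBit p = true) (h : q = p + K ∨ p = q + K) :
    ((M <<< K) ||| (M >>> K)).testBit q = true := by
  rw [Nat.testBit_or, Bool.or_eq_true]
  rcases h with h | h
  · left
    subst h
    rw [Nat.testBit_shiftLeft]
    simp [hM]
  · right
    subst h
    rw [Nat.testBit_shiftRight]
    rwa [Nat.add_comm]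

lemma check_sound : ∀ (L : List ℕ) (M : ℕ), check M L = true →
    ∀ x : Fin 2 → ℤ, nsq x < 64 → M.testBit (idx x) = true → Dies 64 (L.map toV) x
  | [], M, h, x, _, hb => by
      have hM : M = 0 := by simpa [check] using h
      subst hM
      simp at hb
  | n :: L, M, h, x, hx, hb => by
      have hc : check (stepMask M (dec n)) L = true := h
      have hrec := check_sound L (stepMask M (dec n)) hc
      have hx' := hx
      rw [nsq_two] at hx'
      obtain ⟨h1, h2, h3, h4⟩ := coord_bound hx'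
      have child : ∀ y : Fin 2 → ℤ, (nsq y < 64 → (idx y = idx x + shiftOf (dec n) ∨
          idx x = idx y + shiftOf (dec n))) → Dies 64 (L.map toV) y := by
        intro y hy
        by_cases hk : nsq y < 64
        · refine hrec y hk ?_
          unfold stepMask
          rw [Nat.testBit_and, Bool.and_eq_true]
          exact ⟨step_bit hb (hy hk), alive_of_nsq hk⟩
        · exact dies_of_le (not_lt.mp hk) _
      refine Or.inr ⟨child _ ?_, child _ ?_⟩
      · intro hk
        have hk' := hk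
        rw [nsq_two] at hk'
        obtain ⟨h5, h6, h7, h8⟩ := coord_bound hk'
        simp only [toV, Pi.add_apply, Matrix.cons_val_zero, Matrix.cons_val_one] at h5 h6 h7 h8
        unfold idx shiftOf
        simp only [toV, Pi.add_apply, Matrix.cons_val_zero, Matrix.cons_val_one]
        omega
      · intro hk
        have hk' := hk
        rw [nsq_two] at hk'
        obtain ⟨h5, h6, h7, h8⟩ := coord_bound hk'
        simp only [toV, Pi.sub_apply, Matrix.cons_val_zero, Matrix.cons_val_one] at h5 h6 h7 h8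
        unfold idx shiftOf
        simp only [toV, Pi.sub_apply, Matrix.cons_val_zero, Matrix.cons_val_one]
        omega

/-- The machine check of the certificate. -/
lemma check_cert : check aliveMask cert = true := by
  decide +kernel

lemma cert_bound : cert.all (fun n => decide ((dec n).1 * (dec n).1 + (dec n).2 * (dec n).2 ≤ 25)) = true := by
  decide +kernel

/-- The universal kill list in the plane. -/
theorem kill_plane : Kill (Fin 2) 64 := by
  refine ⟨cert.map toV, ?_, fun x => ?_⟩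
  · intro v hv
    obtain ⟨n, hn, rfl⟩ := List.mem_map.mp hv
    have := List.all_eq_true.mp cert_bound n hn
    have h2 : (dec n).1 * (dec n).1 + (dec n).2 * (dec n).2 ≤ 25 := by simpa using this
    rw [nsq_two]
    simp only [toV, Matrix.cons_val_zero, Matrix.cons_val_one]
    nlinarith
  · by_cases hx : nsq x < 64
    · exact check_sound cert aliveMask check_cert x hx (alive_of_nsq hx)
    · exact dies_of_le (not_lt.mp hx) _

/-- Universal kill lists in even dimension. -/
theorem kill_even : ∀ k : ℕ, Kill (Fin (2 * k)) (64 * k)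
  | 0 => ⟨[], by simp, fun x => by
      show (64 * ((0 : ℕ) : ℤ)) ≤ nsq x
      simpa using nsq_nonneg x⟩
  | k + 1 => by
      have h := Kill.sum (kill_even k) kill_plane
      have h2 := Kill.transport (finSumFinEquiv (m := 2 * k) (n := 2)) h
      have e : (64 * ((k + 1 : ℕ) : ℤ)) = 64 * (k : ℤ) + 64 := by push_cast; ring
      rw [e]
      exact h2

/-- Kill list from the origin in every dimension. -/
theorem reach_all (d : ℕ) : Reach (Fin d) (64 * ((d / 2 : ℕ) : ℤ) + 25 * ((d % 2 : ℕ) : ℤ)) := by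
  obtain ⟨k, hk | hk⟩ := Nat.even_or_odd' d
  · subst hk
    have h2 : 2 * k / 2 = k := by omega
    have h3 : 2 * k % 2 = 0 := by omega
    rw [h2, h3]
    obtain ⟨L, hL, hD⟩ := kill_even k
    exact ⟨L, hL, by simpa using hD 0⟩
  · subst hk
    have h2 : (2 * k + 1) / 2 = k := by omega
    have h3 : (2 * k + 1) % 2 = 1 := by omega
    rw [h2, h3]
    obtain ⟨LB, hLB, hDB⟩ := kill_even k
    -- outer block: a single vector of squared norm 25 on one axis
    let a : Fin 1 → ℤ := fun _ => 5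
    have hA : Dies (25 : ℤ) [a] (0 : Fin 1 → ℤ) := by
      refine Or.inr ⟨?_, ?_⟩
      · show (25 : ℤ) ≤ nsq ((0 : Fin 1 → ℤ) + a)
        simp [nsq, a]
      · show (25 : ℤ) ≤ nsq ((0 : Fin 1 → ℤ) - a)
        simp [nsq, a]
    have hN := dies_nest hDB [a] 0 hA 0
    have hb : ∀ v ∈ nest LB [a], nsq v ≤ 25 := by
      refine nest_bound hLB [a] ?_
      intro v hv
      simp only [List.mem_singleton] at hv
      subst hv
      simp [nsq, a]
    have hR : Reach (Fin 1 ⊕ Fin (2 * k)) (25 + 64 * (k : ℤ)) := by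
      refine ⟨nest LB [a], hb, ?_⟩
      have h0 : (Sum.elim (0 : Fin 1 → ℤ) (0 : Fin (2 * k) → ℤ)) = 0 := by
        ext (i | j) <;> rfl
      rwa [h0] at hN
    have hR2 := Reach.transport ((finSumFinEquiv (m := 1) (n := 2 * k)).trans (finCongr (show 1 + 2 * k = 2 * k + 1 by omega))) hR
    have e : (64 * (k : ℤ) + 25 * ((1 : ℕ) : ℤ)) = 25 + 64 * (k : ℤ) := by push_cast; ring
    rw [e]
    exact hR2

/-! ### Passing to real vectors -/

/-- The real vector `(1/5) x`. -/
noncomputable def toE {d : ℕ} (x : Fin d → ℤ) : EuclideanSpace ℝ (Fin d) :=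
  WithLp.toLp 2 (fun i => (x i : ℝ) / 5)

lemma toE_zero {d : ℕ} : toE (0 : Fin d → ℤ) = 0 := by
  ext i; simp [toE]

lemma toE_add {d : ℕ} (x y : Fin d → ℤ) : toE (x + y) = toE x + toE y := by
  ext i; simp [toE]; ring

lemma toE_sub {d : ℕ} (x y : Fin d → ℤ) : toE (x - y) = toE x - toE y := by
  ext i; simp [toE]; ring

lemma norm_sq_toE {d : ℕ} (x : Fin d → ℤ) : ‖toE x‖ ^ 2 = (nsq x : ℝ) / 25 := by
  rw [EuclideanSpace.real_norm_sq_eq]
  simp only [toE, nsq]
  push_cast
  rw [Finset.sum_div]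
  refine Finset.sum_congr rfl fun i _ => ?_
  ring

lemma exists_prefix {d : ℕ} {T : ℤ} :
    ∀ (L : List (Fin d → ℤ)) (x : Fin d → ℤ) (ε : ℕ → ℝ), (∀ i, ε i = 1 ∨ ε i = -1) →
      Dies T L x → ∃ k ≤ L.length, (T : ℝ) / 25 ≤
        ‖toE x + ∑ i ∈ Finset.range k, ε i • toE (L.getD i 0)‖ ^ 2
  | [], x, ε, _, h => by
      refine ⟨0, le_rfl, ?_⟩
      have h' : T ≤ nsq x := h
      simp only [Finset.range_zero, Finset.sum_empty, add_zero]
      rw [norm_sq_toE]
      have : (T : ℝ) ≤ nsq x := by exact_mod_cast h'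
      linarith
  | v :: L, x, ε, hε, h => by
      rcases h with h | ⟨h1, h2⟩
      · refine ⟨0, Nat.zero_le _, ?_⟩
        simp only [Finset.range_zero, Finset.sum_empty, add_zero]
        rw [norm_sq_toE]
        have : (T : ℝ) ≤ nsq x := by exact_mod_cast h
        linarith
      · have hε' : ∀ i, ε (i + 1) = 1 ∨ ε (i + 1) = -1 := fun i => hε (i + 1)
        have shift : ∀ k, ∑ i ∈ Finset.range (k + 1), ε i • toE ((v :: L).getD i 0) =
            ε 0 • toE v + ∑ i ∈ Finset.range k, ε (i + 1) • toE (L.getD i 0) := by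
          intro k
          rw [Finset.sum_range_succ', add_comm]
          simp
        rcases hε 0 with h0 | h0
        · obtain ⟨k, hk, hT⟩ := exists_prefix L (x + v) (fun i => ε (i + 1)) hε' h1
          refine ⟨k + 1, by simpa using hk, ?_⟩
          rw [shift, h0, one_smul, ← add_assoc, ← toE_add]
          exact hT
        · obtain ⟨k, hk, hT⟩ := exists_prefix L (x - v) (fun i => ε (i + 1)) hε' h2
          refine ⟨k + 1, by simpa using hk, ?_⟩
          rw [shift, h0, neg_smul, one_smul, ← add_assoc, ← sub_eq_add_neg, ← toE_sub]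
          exact hT

lemma getD_bound {d : ℕ} : ∀ (L : List (Fin d → ℤ)) (i : ℕ), (∀ v ∈ L, nsq v ≤ 25) →
    nsq (L.getD i 0) ≤ 25
  | [], i, _ => by simp [nsq]
  | v :: L, 0, h => by simpa using h v (by simp)
  | v :: L, i + 1, h => by
      simpa using getD_bound L i (fun w hw => h w (by simp [hw]))

/-- Main theorem in the working form. -/
theorem main_bound (d : ℕ) :
    ∃ (N : ℕ) (v : ℕ → EuclideanSpace ℝ (Fin d)), (∀ i, ‖v i‖ ≤ 1) ∧
      ∀ ε : ℕ → ℝ, (∀ i, ε i = 1 ∨ ε i = -1) →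
        ∃ k ≤ N, (32 * (d : ℝ) - 7) / 25 ≤ ‖∑ i ∈ Finset.range k, ε i • v i‖ ^ 2 := by
  obtain ⟨L, hL, hD⟩ := reach_all d
  refine ⟨L.length, fun i => toE (L.getD i 0), fun i => ?_, fun ε hε => ?_⟩
  · have h1 : nsq (L.getD i 0) ≤ 25 := getD_bound L i hL
    have h2 : ‖toE (L.getD i 0)‖ ^ 2 ≤ 1 := by
      rw [norm_sq_toE]
      have : (nsq (L.getD i 0) : ℝ) ≤ 25 := by exact_mod_cast h1
      linarith
    nlinarith [norm_nonneg (toE (L.getD i 0))]
  · obtain ⟨k, hk, hT⟩ := exists_prefix L 0 ε hε hD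
    rw [toE_zero, zero_add] at hT
    refine ⟨k, hk, le_trans ?_ hT⟩
    have hd : d = 2 * (d / 2) + d % 2 := by omega
    have hm : d % 2 ≤ 1 := by omega
    generalize d / 2 = q at hd ⊢
    generalize d % 2 = r at hd hm ⊢
    have hd' : (d : ℝ) = 2 * (q : ℝ) + (r : ℝ) := by exact_mod_cast hd
    have hm' : (r : ℝ) ≤ 1 := by exact_mod_cast hm
    have hr0 : (0 : ℝ) ≤ (r : ℝ) := by positivity
    have hcast : ((64 * (q : ℤ) + 25 * (r : ℤ) : ℤ) : ℝ) = 64 * (q : ℝ) + 25 * (r : ℝ) := by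
      push_cast; ring
    rw [hcast, hd']
    linarith

end Vale.Agent.P262
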